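import Vale.Agent.N347X.Bridge

/-! Hand-in for P347: an explicit upper bound for the query complexity. -/

open MeasureTheory Filter

namespace Vale.Agent.Results.P347.A0ExplicitRate

open Vale.Agent.N347X

/-- The minimum is attained, and an explicit upper bound in `d` and the accuracy `ε`. -/
theorem result :
    ∃ C : ℝ, ∀ (d : ℕ) (ε : ℝ), 2 ≤ d → 0 < ε → ε ≤ 1 → Samples d (Qc d ε) ε ∧
      (Qc d ε : ℝ) ≤ Real.exp (C * Real.log (d / ε) ^ (2 / 3 : ℝ) *
        Real.log (1 + Real.log (d / ε)) ^ (1 / 3 : ℝ)) := by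
  obtain ⟨C, -, hC⟩ := within_rate
  refine ⟨C, fun d ε hd h0 h1 => ?_⟩
  obtain ⟨q, hq, A, hA⟩ := hC d ε hd h0 h1
  have h2 : Qc d ε ≤ q := Nat.sInf_le (samples_of A hA)
  refine ⟨Nat.sInf_mem (s := {q | Samples d q ε}) ⟨q, samples_of A hA⟩, ?_⟩
  rw [mul_assoc]
  exact le_trans (by exact_mod_cast h2) hq

end Vale.Agent.Results.P347.A0ExplicitRate
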