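import Vale.Agent.N347.Main

/-! Hand-in for P347: rounds of adaptivity. -/

open MeasureTheory Filter
open scoped RealInnerProductSpace

namespace Vale.Agent.Results.P347.A0RoundsAndTransport

open Vale.Agent.P347 Vale.Agent.N347

theorem result :
    -- (1) `q` queries in `r` rounds, accuracy `θ` on the quadratic potentials of the class
    (∀ (d q r : ℕ) (A : Algo d q) (θ : ℝ), Rounds A r →
      (∀ V ∈ PotClass d, (∃ S : Eu d →L[ℝ] Eu d, ∀ x, V x = 1 / 2 * ⟪x, S x⟫) →
        ∀ B : Set (Eu d), MeasurableSet B → |(A.law V).real B - (target V).real B| ≤ θ) →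
      (1 - θ) * d ≤ 40 * ((q : ℝ) + 1) ^ 4 * 2 ^ (17 * (r + 1))) ∧
    -- (2) at most `d ^ (1 / 5)` queries need `log d / 100` rounds; `q` queries fit in `q` rounds
    (∀ᶠ d : ℕ in atTop, ∀ (q r : ℕ) (A : Algo d q), A.Good → Rounds A r →
      (q : ℝ) ≤ (d : ℝ) ^ (1 / 5 : ℝ) → 1 / 100 * Real.log d ≤ r) ∧
    ∀ (d q : ℕ) (A : Algo d q), Rounds A q := by
  refine ⟨fun d q r A θ hr h => lower_rounds A hr fun V hV => h V hV.1 hV.2, rounds_log,
    fun d q A => ⟨fun k => k, fun k => k.2, fun k ω α β h => ?_⟩⟩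
  rw [show α = β from funext fun j => h j j.2]

end Vale.Agent.Results.P347.A0RoundsAndTransport
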